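import Vale.Agent.P183.H330D.Glue
import Vale.Agent.P183.H330G.Core

/-!
Distributive fibres with flag spaces: the extension is representable.
-/

namespace Vale.Agent.P183.H330D

open Vale.Agent.P183 Vale.Agent.P183.H330 Vale.Agent.P183.H330G

variable {L K : Type} [Lattice L] [Lattice K] {f : LatticeHom L K} {lo hi : K → L}

/-- The fibre over `t` has universal flag spaces. -/
def GoodF (f : LatticeHom L K) (lo : K → L) (t : K) : Prop :=
  ∀ n, ∃ (S : Sp f lo t) (B : Subgroup (Equiv.Perm S.X)), B ≤ isoSub S ∧ (∀ ω, IntOK S B ω) ∧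
    FlagOK S ∧ LevF S B n

/-- **Extensions with good fibres.** -/
theorem ext_goodF [Finite L] (hf : Function.Surjective f) (b0 : K) (hb0 : ∀ k, b0 ≤ k)
    (hflo : ∀ k, f (lo k) = k) (hfhi : ∀ k, f (hi k) = k)
    (hlo : ∀ l, lo (f l) ≤ l) (hhi : ∀ l, l ≤ hi (f l))
    (hd : ∀ t x y z, f x = t → f y = t → f z = t → (x ⊓ y) ⊔ z = (x ⊔ z) ⊓ (y ⊔ z))
    (hgood : ∀ t, GoodF f lo t)
    (hK : Representable K) : Representable L := by
  classical
  have hKfin : Finite K := Finite.of_surjective f hf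
  have hlo' : ∀ k l, k ≤ f l → lo k ≤ l := by
    intro k l h
    have h1 : f (lo k ⊓ l) = k := by rw [map_inf, hflo, inf_eq_left.2 h]
    have h3 := hlo (lo k ⊓ l)
    rw [h1] at h3
    exact h3.trans inf_le_right
  obtain ⟨F, hF⟩ := exists_rec (K := K) (C := fun t => Σ S : Sp f lo t, Subgroup (Equiv.Perm S.X))
    (fun t prev St => (St.2 ≤ isoSub St.1 ∧ (∀ ω, IntOK St.1 St.2 ω) ∧ FlagOK St.1) ∧
      LevF St.1 St.2 (Nat.card (Σ r : {r : K // r < t}, (prev r.1 r.2).1.X))) (by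
    intro t prev
    obtain ⟨St, Bt, h1, h2, h3, h4⟩ := hgood t
      (Nat.card (Σ r : {r : K // r < t}, (prev r.1 r.2).1.X))
    exact ⟨⟨St, Bt⟩, ⟨h1, h2, h3⟩, h4⟩)
  let S : ∀ t, Sp f lo t := fun t => (F t).1
  let B : ∀ t, Subgroup (Equiv.Perm (S t).X) := fun t => (F t).2
  have hBI : ∀ t, B t ≤ isoSub (S t) ∧ (∀ ω, IntOK (S t) (B t) ω) ∧ FlagOK (S t) :=
    fun t => (hF t).1
  obtain ⟨ω1⟩ := (S b0).ne
  have hne : ∀ t, Nonempty (∀ r, (S r).X → (S t).X) := fun t => by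
    have := (S t).ne
    exact ⟨fun _ _ => Classical.arbitrary _⟩
  obtain ⟨J, hJ⟩ := exists_family (C := fun t => ∀ r, (S r).X → (S t).X)
    (fun t J => Good3 S B t J) (fun t J J' h hg => hg.local h)
    (fun t J hJ => exists_step4 (fun s g hg => (hBI s).1 hg) hlo' hflo hfhi hhi hJ
      (fun r _ => (hBI r).2.2) (hd t) (hF t).2)
  refine core3 (hi := hi) hf S J B (fun t => J t b0 ω1) hlo hfhi hhi hJ (fun s => (hBI s).1)
    (fun r t hrt => (hJ t).comp _ _ (hb0 r) hrt ω1) (fun s => (hBI s).2.1 _) hK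

end Vale.Agent.P183.H330D
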