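import Vale.Agent.P183.Defs
import Mathlib.Order.Hom.Lattice
import Mathlib.Order.Cover
import Mathlib.Algebra.Group.Subgroup.Lattice

/-!
Conditions on a lattice homomorphism; series of congruences with distributive classes; the
lattices which cannot be reduced.
-/

namespace Vale.Agent.P183.H330D

/-- All the fibres of `f` (the classes of its kernel) are distributive. -/
def DistribFibres {L K : Type} [Lattice L] [Lattice K] (f : LatticeHom L K) : Prop :=
  ∀ x y z, f x = f y → f y = f z → (x ⊓ y) ⊔ z = (x ⊔ z) ⊓ (y ⊔ z)

/-- `X` is an interval `[H, G]` in the subgroup lattice of a finite group. -/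
def IsGroupInterval (X : Type) [LE X] : Prop :=
  ∃ (G : Type) (_ : Group G) (_ : Finite G) (H : Subgroup G),
    Nonempty (X ≃o {W : Subgroup G // H ≤ W})

/-- Outside the least fibre every element is incomparable with at most one element of its own
fibre. -/
def NarrowAboveLeast {L K : Type} [Lattice L] [Lattice K] (f : LatticeHom L K) : Prop :=
  ∀ x y z, f x = f y → f x = f z → ¬ IsMin (f x) →
    ¬ x ≤ y → ¬ y ≤ x → ¬ x ≤ z → ¬ z ≤ x → y = z

/-- The fibres other than the least one are distributive. -/
def DistribAboveLeast {L K : Type} [Lattice L] [Lattice K] (f : LatticeHom L K) : Prop :=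
  ∀ x y z, f x = f y → f y = f z → ¬ IsMin (f x) → (x ⊓ y) ⊔ z = (x ⊔ z) ⊓ (y ⊔ z)

/-- The lower covers of every `t` can be listed as `c 0, …, c (n - 1)` in such a way that every
`c j` with `0 < j` has some `p < j` with `c i ⊓ c j ≤ c p` for all `i < j`. -/
def TreeLike (K : Type) [Lattice K] : Prop :=
  ∀ t : K, ∃ (n : ℕ) (c : ℕ → K), (∀ r, r ⋖ t ↔ ∃ i, i < n ∧ c i = r) ∧
    ∀ j, j < n → 0 < j → ∃ p, p < j ∧ ∀ i, i < j → c i ⊓ c j ≤ c p

/-- The finite lattices which are obtained from a one-element lattice by successive extensions
with distributive fibres. -/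
inductive DistribSeries : (L : Type) → [Lattice L] → Prop
  | point (L : Type) [Lattice L] [Unique L] : DistribSeries L
  | ext (L K : Type) [Lattice L] [Finite L] [Lattice K] (f : LatticeHom L K)
      (hf : Function.Surjective f) (hd : DistribFibres f) (hK : DistribSeries K) :
      DistribSeries L

/-- `L` is subdirectly irreducible: two different elements are identified by every homomorphism
from `L` which is not injective. -/
def SubdirectlyIrreducible (L : Type) [Lattice L] : Prop :=
  ∃ a b : L, a ≠ b ∧ ∀ (K : Type) (_ : Lattice K) (f : LatticeHom L K),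
    ¬ Function.Injective f → f a = f b

/-- `L` is reduced: subdirectly irreducible, and every homomorphism from `L` which is not
injective has a fibre which is not distributive. -/
def Reduced (L : Type) [Lattice L] : Prop :=
  SubdirectlyIrreducible L ∧ ∀ (K : Type) (_ : Lattice K) (f : LatticeHom L K),
    ¬ Function.Injective f → ¬ DistribFibres f

end Vale.Agent.P183.H330D
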