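import Vale.Agent.P183.H330D.Lev
import Vale.Agent.P183.Bdl.B3

/-!
The class of representable lattices is closed under extensions with distributive fibres.
-/

namespace Vale.Agent.P183.H330D

open Vale.Agent.P183 Vale.Agent.P183.H330 Vale.Agent.P183.H330G

variable {L K : Type} [Lattice L] [Lattice K]

/-- **Distributive fibres over an arbitrary representable lattice.** -/
theorem ext_distrib_all [Finite L] (f : LatticeHom L K) (hf : Function.Surjective f)
    (hK : Representable K)
    (hd : ∀ x y z, f x = f y → f y = f z → (x ⊓ y) ⊔ z = (x ⊔ z) ⊓ (y ⊔ z)) :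
    Representable L := by
  have hKf : Finite K := Finite.of_surjective f hf
  have hKn : Nonempty K := hK.nonempty
  obtain ⟨b0, hb0⟩ := exists_least (K := K)
  obtain ⟨lo, hi, hflo, hfhi, hlo, hhi⟩ := exists_lo_hi_fin f hf
  have hd' : ∀ t x y z, f x = t → f y = t → f z = t → (x ⊓ y) ⊔ z = (x ⊔ z) ⊓ (y ⊔ z) :=
    fun t x y z hx hy hz => hd x y z (hx.trans hy.symm) (hy.trans hz.symm)
  refine ext_goodF (hi := hi) hf b0 hb0 hflo hfhi hlo hhi hd' (fun t => ?_) hK
  exact goodF_distrib (hflo t) (hfhi t) (fun l hl => by rw [← hl]; exact hlo l)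
    (fun l hl => by rw [← hl]; exact hhi l) (hd' t)

end Vale.Agent.P183.H330D
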