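import Vale.Agent.P183.Bdl.B2
import Mathlib.Logic.Function.Basic
import Mathlib.Tactic.Group

/-!
Functions on `M × (P → Fin 3)` with values in a simple group: dependency sets, intermediate
subgroups.
-/

namespace Vale.Agent.P183.H330D

open Vale.Agent.P183

variable {P M T : Type}

/-- The domain of the functions. -/
abbrev Om (M P : Type) : Type := M × (P → Fin 3)

/-- Two points agree in the first coordinate and in the coordinates in `Q`. -/
def Rl (Q : P → Prop) (x y : Om M P) : Prop := x.1 = y.1 ∧ ∀ p, Q p → x.2 p = y.2 p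

/-- The function depends only on the first coordinate and on the coordinates in `Q`. -/
def Dep (Q : P → Prop) (h : Om M P → T) : Prop := ∀ x y, Rl Q x y → h x = h y

open Classical in
/-- The function depends on the coordinate `p`. -/
def Ess (p : P) (h : Om M P → T) : Prop :=
  ∃ (m : M) (w : P → Fin 3) (z : Fin 3), h (m, w) ≠ h (m, Function.update w p z)

theorem Rl.symm {Q : P → Prop} {x y : Om M P} (h : Rl Q x y) : Rl Q y x :=
  ⟨h.1.symm, fun p hp => (h.2 p hp).symm⟩

theorem Dep.mono {Q Q' : P → Prop} {h : Om M P → T} (hD : Dep Q h) (hQ : ∀ p, Q p → Q' p) :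
    Dep Q' h := fun x y hxy => hD x y ⟨hxy.1, fun p hp => hxy.2 p (hQ p hp)⟩

open Classical in
theorem dep_iff [Finite P] {Q : P → Prop} {h : Om M P → T} : Dep Q h ↔ ∀ p, Ess p h → Q p := by
  cases nonempty_fintype P
  constructor
  · rintro hD p ⟨m, w, z, hne⟩
    by_contra hp
    apply hne
    apply hD
    refine ⟨rfl, fun q hq => ?_⟩
    have : q ≠ p := by rintro rfl; exact hp hq
    exact (Function.update_of_ne this _ _).symm
  · rintro hE ⟨m, w⟩ ⟨m', w'⟩ ⟨h1, h2⟩
    obtain rfl : m = m' := h1
    have key : ∀ s : Finset P, h (m, fun p => if p ∈ s then w' p else w p) = h (m, w) := by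
      intro s
      induction s using Finset.induction_on with
      | empty => simp
      | insert q s hq ih =>
        rw [← ih]
        have e : (fun p => if p ∈ insert q s then w' p else w p) =
            Function.update (fun p => if p ∈ s then w' p else w p) q (w' q) := by
          funext p
          by_cases hpq : p = q
          · subst hpq; simp
          · rw [Function.update_of_ne hpq]; simp [hpq]
        rw [e]
        by_cases hQ : Q q
        · have e2 : Function.update (fun p => if p ∈ s then w' p else w p) q (w' q) =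
              fun p => if p ∈ s then w' p else w p := by
            rw [Function.update_eq_self_iff]
            rw [if_neg hq]
            exact (h2 q hQ).symm
          rw [e2]
        · by_contra hne
          exact hQ (hE q ⟨m, _, w' q, fun h' => hne h'.symm⟩)
    have := key Finset.univ
    simpa using this.symm

section Grp

variable [Group T]

theorem Dep.mul {Q : P → Prop} {g h : Om M P → T} (hg : Dep Q g) (hh : Dep Q h) :
    Dep Q (g * h) := by
  intro x y hxy
  show g x * h x = g y * h y
  rw [hg x y hxy, hh x y hxy]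

theorem Dep.inv {Q : P → Prop} {g : Om M P → T} (hg : Dep Q g) : Dep Q g⁻¹ := by
  intro x y hxy
  show (g x)⁻¹ = (g y)⁻¹
  rw [hg x y hxy]

theorem Dep.one {Q : P → Prop} : Dep Q (1 : Om M P → T) := fun _ _ _ => rfl

open Classical in
/-- The flag property for functions. -/
theorem flag_fn [Finite P] (Q Q' : P → Prop) (h : Om M P → T)
    (H : ∀ i j, ¬ Q i → ¬ Q' j → ∃ R R' : P → Prop, ¬ R i ∧ ¬ R' j ∧
      ∃ u v : Om M P → T, Dep R u ∧ Dep R' v ∧ h = u * v) :
    ∃ u v : Om M P → T, Dep Q u ∧ Dep Q' v ∧ h = u * v := by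
  cases nonempty_fintype P
  let z : Finset P → Om M P → Om M P := fun s x => (x.1, fun p => if p ∈ s then 0 else x.2 p)
  have key : ∀ s : Finset P, (∀ j ∈ s, ¬ Q' j) → Dep Q (fun x => h x * (h (z s x))⁻¹) := by
    intro s
    induction s using Finset.induction_on with
    | empty =>
      intro _ x y _
      have e : ∀ x : Om M P, z ∅ x = x := fun x => by simp [z]
      simp only [e, mul_inv_cancel]
    | insert j s hj ih =>
      intro hs
      have h1 := ih (fun i hi => hs i (Finset.mem_insert_of_mem hi))
      have hj' : ¬ Q' j := hs j (Finset.mem_insert_self _ _)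
      let D : Om M P → T := fun x => h x * (h (x.1, Function.update x.2 j 0))⁻¹
      have hD : Dep Q D := by
        rw [dep_iff]
        rintro i ⟨m, w, c, hne⟩
        by_contra hi
        obtain ⟨R, R', hRi, hRj, u, v, hu, hv, rfl⟩ := H i j hi hj'
        apply hne
        have ev : ∀ x : Om M P, v (x.1, Function.update x.2 j 0) = v x := by
          intro x
          refine hv _ _ ⟨rfl, fun p hp => ?_⟩
          have : p ≠ j := by rintro rfl; exact hRj hp
          exact Function.update_of_ne this _ _
        have eD : ∀ x : Om M P, D x = u x * (u (x.1, Function.update x.2 j 0))⁻¹ := by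
          intro x
          show u x * v x * (u (x.1, Function.update x.2 j 0) *
            v (x.1, Function.update x.2 j 0))⁻¹ = _
          rw [ev x]
          group
        rw [eD, eD]
        have e1 : u (m, w) = u (m, Function.update w i c) := by
          refine hu _ _ ⟨rfl, fun p hp => ?_⟩
          have : p ≠ i := by rintro rfl; exact hRi hp
          exact (Function.update_of_ne this _ _).symm
        have e2 : u (m, Function.update w j 0) =
            u (m, Function.update (Function.update w i c) j 0) := by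
          refine hu _ _ ⟨rfl, fun p hp => ?_⟩
          have hpi : p ≠ i := by rintro rfl; exact hRi hp
          by_cases hpj : p = j
          · subst hpj
            show Function.update w p 0 p = Function.update (Function.update w i c) p 0 p
            rw [Function.update_self, Function.update_self]
          · show Function.update w j 0 p = Function.update (Function.update w i c) j 0 p
            rw [Function.update_of_ne hpj, Function.update_of_ne hpj, Function.update_of_ne hpi]
        show u (m, w) * (u (m, Function.update w j 0))⁻¹ = u (m, Function.update w i c) *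
          (u (m, Function.update (Function.update w i c) j 0))⁻¹
        rw [e1, e2]
      intro x y hxy
      have ez : ∀ x : Om M P, z (insert j s) x = ((z s x).1, Function.update (z s x).2 j 0) := by
        intro x
        refine Prod.ext rfl ?_
        funext p
        show (if p ∈ insert j s then 0 else x.2 p) =
          Function.update (fun p => if p ∈ s then 0 else x.2 p) j 0 p
        by_cases hpj : p = j
        · subst hpj; simp
        · rw [Function.update_of_ne hpj]; simp [hpj]
      have e3 : ∀ x : Om M P, h x * (h (z (insert j s) x))⁻¹ =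
          (h x * (h (z s x))⁻¹) * D (z s x) := by
        intro x
        show _ = (h x * (h (z s x))⁻¹) *
          (h (z s x) * (h ((z s x).1, Function.update (z s x).2 j 0))⁻¹)
        rw [ez]
        group
      show h x * (h (z (insert j s) x))⁻¹ = h y * (h (z (insert j s) y))⁻¹
      rw [e3, e3]
      have e4 := h1 x y hxy
      have e4' : h x * (h (z s x))⁻¹ = h y * (h (z s y))⁻¹ := e4
      have e5 : D (z s x) = D (z s y) := by
        apply hD
        refine ⟨hxy.1, fun p hp => ?_⟩
        show (if p ∈ s then 0 else x.2 p) = (if p ∈ s then 0 else y.2 p)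
        rw [hxy.2 p hp]
      rw [e4', e5]
  let s : Finset P := Finset.univ.filter (fun j => ¬ Q' j)
  refine ⟨fun x => h x * (h (z s x))⁻¹, fun x => h (z s x), key s (by
    intro j hj
    simpa [s] using hj), ?_, ?_⟩
  · intro x y hxy
    have : z s x = z s y := by
      refine Prod.ext hxy.1 ?_
      funext p
      show (if p ∈ s then 0 else x.2 p) = (if p ∈ s then 0 else y.2 p)
      by_cases hp : Q' p
      · rw [hxy.2 p hp]
      · have : p ∈ s := by simpa [s] using hp
        rw [if_pos this, if_pos this]
    show h (z s x) = h (z s y)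
    rw [this]
  · funext x
    show h x = h x * (h (z s x))⁻¹ * h (z s x)
    group

open Classical in
/-- Two non-commuting values in different coordinates are not a product. -/
theorem focus_fn (p q : P) (R R' : P → Prop) (hp : ¬ R p) (hq : ¬ R' q) {τ τ' : T}
    (hne : τ * τ' ≠ τ' * τ) (m : M) (u v : Om M P → T) (hu : Dep R u) (hv : Dep R' v)
    (h : ∀ w : P → Fin 3, u (m, w) * v (m, w) =
      (if w p = 0 then τ else 1)⁻¹ * (if w q = 0 then τ' else 1)) : False := by
  have hup : ∀ (w : P → Fin 3) c, u (m, Function.update w p c) = u (m, w) := by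
    intro w c
    refine hu _ _ ⟨rfl, fun r hr => ?_⟩
    have : r ≠ p := by rintro rfl; exact hp hr
    exact Function.update_of_ne this _ _
  have hvq : ∀ (w : P → Fin 3) c, v (m, Function.update w q c) = v (m, w) := by
    intro w c
    refine hv _ _ ⟨rfl, fun r hr => ?_⟩
    have : r ≠ q := by rintro rfl; exact hq hr
    exact Function.update_of_ne this _ _
  by_cases hpq : p = q
  · subst hpq
    have h0 := h (Function.update (fun _ => 1) p 0)
    have h1 := h (fun _ => 1)
    rw [hup, hvq, h1] at h0
    simp only [Function.update_self, if_true, one_ne_zero, if_false, inv_one, mul_one] at h0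
    apply hne
    have h2 : τ = τ' := by
      have := eq_inv_mul_iff_mul_eq.1 h0
      rwa [mul_one] at this
    rw [h2]
  · let w : P → Fin 3 := fun _ => 1
    have h11 := h w
    have h01 := h (Function.update w p 0)
    have h10 := h (Function.update w q 0)
    have h00 := h (Function.update (Function.update w q 0) p 0)
    have hqp : q ≠ p := fun h => hpq h.symm
    rw [hup] at h01 h00
    rw [hvq] at h10
    have e1 : v (m, Function.update (Function.update w q 0) p 0) =
        v (m, Function.update w p 0) := by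
      rw [Function.update_comm hqp, hvq]
    rw [e1] at h00
    have w1 : ∀ r, w r = 1 := fun _ => rfl
    simp only [Function.update_self, Function.update_of_ne hpq, Function.update_of_ne hqp, w1,
      if_true, one_ne_zero, if_false, inv_one, mul_one, one_mul] at h11 h01 h10 h00
    -- u1 v1 = 1, u1 v0 = τ⁻¹, u0 v1 = τ', u0 v0 = τ⁻¹ τ'
    generalize u (m, w) = a1 at *
    generalize v (m, w) = b1 at *
    generalize u (m, Function.update w q 0) = a0 at *
    generalize v (m, Function.update w p 0) = b0 at *
    apply hne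
    have ea : a1 = b1⁻¹ := eq_inv_of_mul_eq_one_left h11
    have ea0 : a0 = τ' * b1⁻¹ := eq_mul_inv_of_mul_eq h10
    have eb0 : b0 = b1 * τ⁻¹ := by
      rw [ea] at h01
      exact eq_mul_of_inv_mul_eq h01
    rw [ea0, eb0] at h00
    have h2 : τ' * τ⁻¹ = τ⁻¹ * τ' := by
      rw [← h00]; group
    calc τ * τ' = τ * (τ' * τ⁻¹) * τ := by group
      _ = τ * (τ⁻¹ * τ') * τ := by rw [h2]
      _ = τ' * τ := by group

end Grp

/-! ### Permutations of the domain -/

section Perm

variable [PartialOrder P]

/-- The permutations which respect all the relations `Rl Q`, `Q` a lower set. -/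
def Hs (M P : Type) [PartialOrder P] : Subgroup (Equiv.Perm (Om M P)) where
  carrier := {h | ∀ Q : P → Prop, (∀ p q, p ≤ q → Q q → Q p) → ∀ x y, Rl Q (h x) (h y) ↔ Rl Q x y}
  one_mem' := fun _ _ _ _ => Iff.rfl
  mul_mem' := by
    intro g h hg hh Q hQ x y
    exact (hg Q hQ _ _).trans (hh Q hQ _ _)
  inv_mem' := by
    intro g hg Q hQ x y
    rw [← hg Q hQ]
    show Rl Q (g (g⁻¹ x)) (g (g⁻¹ y)) ↔ _
    rw [show g (g⁻¹ x) = x from g.apply_symm_apply x, show g (g⁻¹ y) = y from g.apply_symm_apply y]

theorem mem_Hs {h : Equiv.Perm (Om M P)} : h ∈ Hs M P ↔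
    ∀ Q : P → Prop, (∀ p q, p ≤ q → Q q → Q p) → ∀ x y, Rl Q (h x) (h y) ↔ Rl Q x y := Iff.rfl

theorem e1_mem (κ : Equiv.Perm M) (π : P → Equiv.Perm (Fin 3)) :
    (Equiv.prodCongr κ (Equiv.piCongrRight π) : Equiv.Perm (Om M P)) ∈ Hs M P := by
  intro Q _ x y
  constructor
  · rintro ⟨h1, h2⟩
    exact ⟨κ.injective h1, fun p hp => (π p).injective (h2 p hp)⟩
  · rintro ⟨h1, h2⟩
    exact ⟨congrArg κ h1, fun p hp => congrArg (π p) (h2 p hp)⟩

open Classical in
/-- Change the coordinate `q` when the coordinate `p` has the value `c`. -/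
noncomputable def ue (p q : P) (c : Fin 3) (π : Equiv.Perm (Fin 3)) (w : P → Fin 3) :
    P → Fin 3 := fun r => if r = q then (if w p = c then π (w q) else w q) else w r

omit [PartialOrder P] in
theorem ue_self (p q : P) (c : Fin 3) (π : Equiv.Perm (Fin 3)) (w : P → Fin 3) :
    ue p q c π w q = if w p = c then π (w q) else w q := if_pos rfl

omit [PartialOrder P] in
theorem ue_of_ne (p q : P) (c : Fin 3) (π : Equiv.Perm (Fin 3)) (w : P → Fin 3) {r : P}
    (h : r ≠ q) : ue p q c π w r = w r := if_neg h

omit [PartialOrder P] in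
theorem ue_ue (p q : P) (hpq : p ≠ q) (c : Fin 3) (π π' : Equiv.Perm (Fin 3))
    (hπ : ∀ x, π' (π x) = x) (w : P → Fin 3) : ue p q c π' (ue p q c π w) = w := by
  funext r
  by_cases hr : r = q
  · rw [hr, ue_self, ue_of_ne p q c π w hpq, ue_self]
    by_cases hc : w p = c
    · rw [if_pos hc, if_pos hc, hπ]
    · rw [if_neg hc, if_neg hc]
  · rw [ue_of_ne _ _ _ _ _ hr, ue_of_ne _ _ _ _ _ hr]

/-- Change the coordinate `q` when the coordinate `p` has the value `c`. -/
noncomputable def e2 (p q : P) (hpq : p ≠ q) (c : Fin 3) (π : Equiv.Perm (Fin 3)) :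
    Equiv.Perm (Om M P) where
  toFun x := (x.1, ue p q c π x.2)
  invFun x := (x.1, ue p q c π⁻¹ x.2)
  left_inv x := Prod.ext rfl (ue_ue p q hpq c π π⁻¹ (fun x => π.symm_apply_apply x) x.2)
  right_inv x := Prod.ext rfl (ue_ue p q hpq c π⁻¹ π (fun x => π.apply_symm_apply x) x.2)

theorem e2_mem (p q : P) (hpq : p ≠ q) (hle : p ≤ q) (c : Fin 3) (π : Equiv.Perm (Fin 3)) :
    (e2 p q hpq c π : Equiv.Perm (Om M P)) ∈ Hs M P := by
  classical
  intro Q hQ x y
  constructor
  · rintro ⟨h1, h2⟩
    have h3 : ∀ r, r ≠ q → Q r → x.2 r = y.2 r := by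
      intro r hr hQr
      have h4 : ue p q c π x.2 r = ue p q c π y.2 r := h2 r hQr
      rwa [ue_of_ne _ _ _ _ _ hr, ue_of_ne _ _ _ _ _ hr] at h4
    refine ⟨h1, fun r hr => ?_⟩
    by_cases hrq : r = q
    · subst hrq
      have h4 : ue p r c π x.2 r = ue p r c π y.2 r := h2 r hr
      rw [ue_self, ue_self, h3 p hpq (hQ p r hle hr)] at h4
      split_ifs at h4
      · exact π.injective h4
      · exact h4
    · exact h3 r hrq hr
  · rintro ⟨h1, h2⟩
    refine ⟨h1, fun r hr => ?_⟩
    show ue p q c π x.2 r = ue p q c π y.2 r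
    by_cases hrq : r = q
    · subst hrq
      rw [ue_self, ue_self, h2 p (hQ p r hle hr), h2 r hr]
    · rw [ue_of_ne _ _ _ _ _ hrq, ue_of_ne _ _ _ _ _ hrq, h2 r hr]

theorem perm3 : ∀ a b c d : Fin 3, a ≠ b → c ≠ d → ∃ σ : Equiv.Perm (Fin 3), σ a = c ∧ σ b = d := by
  decide

theorem third : ∀ a b : Fin 3, ∃ z : Fin 3, z ≠ a ∧ z ≠ b := by decide

/-- **The intermediate subgroups.** -/
theorem classify [Finite P] [Finite M] [Group T] [IsSimpleGroup T]
    (hT : ∃ a b : T, a * b ≠ b * a) (Y : Subgroup (Om M P → T))
    (h1 : ∀ ψ : Om M P → T, Dep (fun _ => False) ψ → ψ ∈ Y)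
    (h2 : ∀ h ∈ Hs M P, ∀ ψ ∈ Y, (fun x => ψ (h x)) ∈ Y) (u : Om M P → T) :
    u ∈ Y ↔ Dep (fun p => ∃ q, p ≤ q ∧ ∃ ψ ∈ Y, Ess q ψ) u := by
  classical
  constructor
  · intro hu
    rw [dep_iff]
    intro p hp
    exact ⟨p, le_rfl, u, hu, hp⟩
  intro hu
  have hom : Finite (Om M P) := inferInstanceAs (Finite (M × (P → Fin 3)))
  refine mem_of_const_on_classes hT Y (fun s => h1 _ (fun _ _ _ => rfl)) u ?_
  intro x y hxy
  have hinv : ∀ h ∈ Hs M P, ∀ x y : Om M P, (∀ ψ ∈ Y, ψ x = ψ y) → ∀ ψ ∈ Y, ψ (h x) = ψ (h y) :=
    fun h hh x y hxy ψ hψ => hxy _ (h2 h hh ψ hψ)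
  -- (i)
  have hi : ∀ (q : P) (ψ0 : Om M P → T), ψ0 ∈ Y → Ess q ψ0 → ∀ x y : Om M P,
      (∀ ψ ∈ Y, ψ x = ψ y) → x.2 q = y.2 q := by
    rintro q ψ0 hψ0 ⟨m, w, z', hne⟩ x y hxy
    by_contra hq
    obtain ⟨z, hz1, hz2⟩ := third (x.2 q) (y.2 q)
    have hwz : w q ≠ z' := by
      rintro rfl
      apply hne
      rw [Function.update_eq_self]
    let g : Equiv.Perm (Om M P) := Equiv.prodCongr 1
      (Equiv.piCongrRight (fun r => if r = q then Equiv.swap (y.2 q) z else 1))
    have hg : g ∈ Hs M P := e1_mem _ _
    have hgx : g x = x := by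
      refine Prod.ext rfl ?_
      funext r
      show (if r = q then Equiv.swap (y.2 q) z else 1) (x.2 r) = x.2 r
      by_cases hr : r = q
      · subst hr
        rw [if_pos rfl, Equiv.swap_apply_of_ne_of_ne hq (fun h => hz1 h.symm)]
      · rw [if_neg hr]; rfl
    have hgy : g y = (y.1, Function.update y.2 q z) := by
      refine Prod.ext rfl ?_
      funext r
      show (if r = q then Equiv.swap (y.2 q) z else 1) (y.2 r) = Function.update y.2 q z r
      by_cases hr : r = q
      · subst hr
        rw [if_pos rfl, Equiv.swap_apply_left, Function.update_self]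
      · rw [if_neg hr, Function.update_of_ne hr]; rfl
    have hyy : ∀ ψ ∈ Y, ψ y = ψ (y.1, Function.update y.2 q z) := by
      intro ψ hψ
      have h3 := hinv g hg x y hxy ψ hψ
      rw [hgx, hgy] at h3
      rw [← hxy ψ hψ, h3]
    obtain ⟨σ, hσ1, hσ2⟩ := perm3 (y.2 q) z (w q) z' (fun h => hz2 h.symm) hwz
    let g' : Equiv.Perm (Om M P) := Equiv.prodCongr (Equiv.swap y.1 m)
      (Equiv.piCongrRight (fun r => if r = q then σ else Equiv.swap (y.2 r) (w r)))
    have hg' : g' ∈ Hs M P := e1_mem _ _
    have hgy' : g' y = (m, w) := by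
      refine Prod.ext (Equiv.swap_apply_left _ _) ?_
      funext r
      show (if r = q then σ else Equiv.swap (y.2 r) (w r)) (y.2 r) = w r
      by_cases hr : r = q
      · subst hr; rw [if_pos rfl, hσ1]
      · rw [if_neg hr, Equiv.swap_apply_left]
    have hgz' : g' (y.1, Function.update y.2 q z) = (m, Function.update w q z') := by
      refine Prod.ext (Equiv.swap_apply_left _ _) ?_
      funext r
      show (if r = q then σ else Equiv.swap (y.2 r) (w r)) (Function.update y.2 q z r) =
        Function.update w q z' r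
      by_cases hr : r = q
      · subst hr; rw [if_pos rfl, Function.update_self, Function.update_self, hσ2]
      · rw [if_neg hr, Function.update_of_ne hr, Function.update_of_ne hr, Equiv.swap_apply_left]
    apply hne
    have h3 := hinv g' hg' _ _ hyy ψ0 hψ0
    rwa [hgy', hgz'] at h3
  apply hu
  refine ⟨?_, ?_⟩
  · by_contra hne
    obtain ⟨a, b, hab⟩ := hT
    have ha : a ≠ 1 := by
      rintro rfl
      exact hab (by rw [one_mul, mul_one])
    have h3 := hxy (fun z => if z.1 = x.1 then a else 1) (h1 _ (by
      intro z z' hz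
      show (if z.1 = x.1 then a else 1) = (if z'.1 = x.1 then a else 1)
      rw [hz.1]))
    rw [if_pos rfl, if_neg (fun h => hne h.symm)] at h3
    exact ha h3
  · rintro p ⟨q, hpq, ψ, hψ, hE⟩
    have hq := hi q ψ hψ hE x y hxy
    by_cases hne : p = q
    · subst hne; exact hq
    by_contra hp
    let g : Equiv.Perm (Om M P) := e2 p q hne (x.2 p) (Equiv.swap (x.2 q) (x.2 q + 1))
    have hg : g ∈ Hs M P := e2_mem p q hne hpq _ _
    have h3 := hi q ψ hψ hE (g x) (g y) (hinv g hg x y hxy)
    have e1 : (g x).2 q = x.2 q + 1 := by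
      show ue p q (x.2 p) _ x.2 q = _
      rw [ue_self, if_pos rfl, Equiv.swap_apply_left]
    have e3 : (g y).2 q = y.2 q := by
      show ue p q (x.2 p) _ y.2 q = _
      rw [ue_self, if_neg (fun h => hp h.symm)]
    rw [e1, e3, ← hq] at h3
    have : ∀ a : Fin 3, a + 1 ≠ a := by decide
    exact this _ h3

end Perm

end Vale.Agent.P183.H330D
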