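import Vale.Agent.P183.H330D.Spc

/-!
Universality of the flag spaces.
-/

namespace Vale.Agent.P183.H330D

open Vale.Agent.P183 Vale.Agent.P183.H330 Vale.Agent.P183.H330G

/-- The first coordinates. -/
abbrev Mi (P : Type) (n : ℕ) : Type := Option ((P × Fin n) ⊕ ((P × Fin n) × (P × Fin n) × Bool))

open Classical in
/-- The function attached to a point. -/
noncomputable def vf {P T A : Type} [Group T] {n : ℕ} (cl : P → A → Fin n) (τ τ' : T)
    (Cp : P → Fin n → P → Fin n → Prop) (a : A) : Om (Mi P n) P → T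
  | (none, _) => 1
  | (some (Sum.inl (p, u)), w) => if cl p a = u then (if w p = 0 then τ else 1) else 1
  | (some (Sum.inr ((p, u), (q, v), β)), w) =>
    (if cl p a = u ∧ β = false then (if w p = 0 then τ else 1) else 1) *
      (if cl q a = v ∧ (Cp p u q v ↔ β = true) then (if w q = 0 then τ' else 1) else 1)

open Classical in
/-- The permutation of the first coordinates induced by permutations of the labels. -/
noncomputable def kp {P : Type} {n : ℕ} (s : P → Equiv.Perm (Fin n)) (U : P → Fin n → Prop)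
    (Cp : P → Fin n → P → Fin n → Prop) : Mi P n → Mi P n
  | none => none
  | some (Sum.inl (p, u)) => some (Sum.inl (p, s p u))
  | some (Sum.inr ((p, u), (q, v), β)) =>
    some (Sum.inr ((p, s p u), (q, s q v),
      if U p u ∨ (Cp p u q v ↔ Cp p (s p u) q (s q v)) then β else !β))

theorem kp_inj {P : Type} {n : ℕ} (s : P → Equiv.Perm (Fin n)) (U : P → Fin n → Prop)
    (Cp : P → Fin n → P → Fin n → Prop) : Function.Injective (kp s U Cp) := by
  classical
  rintro (_ | ⟨p, u⟩ | ⟨⟨p, u⟩, ⟨q, v⟩, β⟩) (_ | ⟨p', u'⟩ | ⟨⟨p', u'⟩, ⟨q', v'⟩, β'⟩) h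
  · rfl
  · exact absurd h (by simp [kp])
  · exact absurd h (by simp [kp])
  · exact absurd h (by simp [kp])
  · simp only [kp, Option.some.injEq, Sum.inl.injEq, Prod.mk.injEq] at h
    obtain ⟨rfl, h2⟩ := h
    rw [(s p).injective h2]
  · exact absurd h (by simp [kp])
  · exact absurd h (by simp [kp])
  · exact absurd h (by simp [kp])
  · simp only [kp, Option.some.injEq, Sum.inr.injEq, Prod.mk.injEq] at h
    obtain ⟨⟨rfl, h2⟩, ⟨rfl, h3⟩, h4⟩ := h
    have h2' := (s p).injective h2
    have h3' := (s q).injective h3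
    subst h2' h3'
    have h5 : β = β' := by
      split_ifs at h4
      · exact h4
      · exact Bool.not_inj h4
    rw [h5]

variable {L K : Type} [Lattice L] [Lattice K] {f : LatticeHom L K} {lo hi : K → L} {t : K}

/-- **Distributive fibres are good.** -/
theorem goodF_distrib [Finite L] (hflo : f (lo t) = t) (hfhi : f (hi t) = t)
    (hlo' : ∀ l, f l = t → lo t ≤ l) (hhi' : ∀ l, f l = t → l ≤ hi t)
    (hd : ∀ x y z, f x = t → f y = t → f z = t → (x ⊓ y) ⊔ z = (x ⊔ z) ⊓ (y ⊔ z)) :
    GoodF f lo t := by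
  classical
  intro n
  have hsimp : IsSimpleGroup (alternatingGroup (Fin 5)) := alternatingGroup.isSimpleGroup (by simp)
  let P := JP f lo t
  have hPf : Finite P := inferInstanceAs (Finite (JP f lo t))
  have hMf : Finite (Mi P n) :=
    inferInstanceAs (Finite (Option ((P × Fin n) ⊕ ((P × Fin n) × (P × Fin n) × Bool))))
  have hMn : Nonempty (Mi P n) := ⟨none⟩
  obtain ⟨S, mk, B, hdm, hmk, hrho, hBiso, hint, hflag⟩ := exists_grp hflo hfhi hlo' hhi' hd
    (Mi P n) (alternatingGroup (Fin 5)) alternatingFive_noncomm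
  refine ⟨S, B, hBiso, hint, hflag, ?_⟩
  obtain ⟨τ, τ', hττ⟩ := alternatingFive_noncomm
  have hτ1 : τ ≠ 1 := by
    rintro rfl
    exact hττ (by rw [one_mul, mul_one])
  intro A _ hA δ hδf hδs hδsy hδt
  -- labels
  have hcl : ∀ p : P, ∃ cl : A → Fin n, ∀ x y, cl x = cl y ↔ ¬ p.1 ≤ δ x y := by
    intro p
    let r : Setoid A :=
      { r := fun x y => ¬ p.1 ≤ δ x y
        iseqv := ⟨fun x h => p.2.2.1 (by rwa [hδs] at h), fun {x y} h => by rwa [hδsy],
          fun {x y z} h h' hc => by
            rcases p.2.2.2 _ _ (hδf x y) (hδf y z) (hc.trans (hδt x y z)) with h3 | h3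
            · exact h h3
            · exact h' h3⟩ }
    have hcard : Nat.card (Quotient r) ≤ Nat.card (Fin n) := by
      have h3 := Nat.card_le_card_of_surjective (Quotient.mk r) Quotient.mk_surjective
      rw [Nat.card_fin]
      omega
    obtain ⟨e⟩ : Nonempty (Quotient r ↪ Fin n) := by
      have := Fintype.ofFinite (Quotient r)
      rw [Nat.card_eq_fintype_card, Nat.card_eq_fintype_card] at hcard
      exact Function.Embedding.nonempty_of_card_le hcard
    refine ⟨fun x => e (Quotient.mk r x), fun x y => ?_⟩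
    rw [e.injective.eq_iff]
    exact Quotient.eq
  choose cl hcl using hcl
  let Cp : P → Fin n → P → Fin n → Prop := fun p u q v => ∃ c : A, cl p c = u ∧ cl q c = v
  let v : A → Om (Mi P n) P → alternatingGroup (Fin 5) := vf cl τ τ' Cp
  -- the distance
  have hle : ∀ a b, Dep (Bl (δ a b)) ((v a)⁻¹ * v b) := by
    rintro a b ⟨m, w⟩ ⟨m', w'⟩ ⟨h1, h2⟩
    obtain rfl : m = m' := h1
    have h2' : ∀ p : P, p.1 ≤ δ a b → w p = w' p := h2
    show (v a (m, w))⁻¹ * v b (m, w) = (v a (m, w'))⁻¹ * v b (m, w')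
    rcases m with _ | ⟨p, u⟩ | ⟨⟨p, u⟩, ⟨q, u'⟩, β⟩
    · rfl
    · show (if cl p a = u then (if w p = 0 then τ else 1) else 1)⁻¹ *
        (if cl p b = u then (if w p = 0 then τ else 1) else 1) =
        (if cl p a = u then (if w' p = 0 then τ else 1) else 1)⁻¹ *
        (if cl p b = u then (if w' p = 0 then τ else 1) else 1)
      by_cases hp : p.1 ≤ δ a b
      · rw [h2' p hp]
      · rw [(hcl p a b).2 hp, inv_mul_cancel, inv_mul_cancel]
    · show ((if cl p a = u ∧ β = false then (if w p = 0 then τ else 1) else 1) *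
        (if cl q a = u' ∧ (Cp p u q u' ↔ β = true) then (if w q = 0 then τ' else 1) else 1))⁻¹ *
        ((if cl p b = u ∧ β = false then (if w p = 0 then τ else 1) else 1) *
        (if cl q b = u' ∧ (Cp p u q u' ↔ β = true) then (if w q = 0 then τ' else 1) else 1)) =
        ((if cl p a = u ∧ β = false then (if w' p = 0 then τ else 1) else 1) *
        (if cl q a = u' ∧ (Cp p u q u' ↔ β = true) then (if w' q = 0 then τ' else 1) else 1))⁻¹ *
        ((if cl p b = u ∧ β = false then (if w' p = 0 then τ else 1) else 1) *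
        (if cl q b = u' ∧ (Cp p u q u' ↔ β = true) then (if w' q = 0 then τ' else 1) else 1))
      by_cases hp : p.1 ≤ δ a b
      · by_cases hq : q.1 ≤ δ a b
        · rw [h2' p hp, h2' q hq]
        · rw [h2' p hp, (hcl q a b).2 hq]
          by_cases hc : cl q b = u' ∧ (Cp p u q u' ↔ β = true)
          · have ha : ¬ (cl p a = u ∧ β = false) := by
              rintro ⟨h3, h4⟩
              have h5 : Cp p u q u' := ⟨a, h3, ((hcl q a b).2 hq).trans hc.1⟩
              have h6 := hc.2.1 h5
              rw [h4] at h6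
              exact absurd h6 (by decide)
            have hb : ¬ (cl p b = u ∧ β = false) := by
              rintro ⟨h3, h4⟩
              have h5 : Cp p u q u' := ⟨b, h3, hc.1⟩
              have h6 := hc.2.1 h5
              rw [h4] at h6
              exact absurd h6 (by decide)
            rw [if_neg ha, if_neg hb, inv_mul_cancel, inv_mul_cancel]
          · rw [if_neg hc, if_neg hc]
      · rw [(hcl p a b).2 hp]
        by_cases hq : q.1 ≤ δ a b
        · rw [h2' q hq]
          group
        · rw [(hcl q a b).2 hq, inv_mul_cancel, inv_mul_cancel]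
  have hge : ∀ a b l, f l = t → Dep (Bl l) ((v a)⁻¹ * v b) → δ a b ≤ l := by
    intro a b l hl hD
    refine jsep hlo' hd (hδf a b) hl (fun p hp => ?_)
    by_contra hpl
    have hne : cl p b ≠ cl p a := by
      intro h
      exact (hcl p a b).1 h.symm hp
    have h1 := hD (some (Sum.inl (p, cl p a)), fun _ => 0)
      (some (Sum.inl (p, cl p a)), Function.update (fun _ => 0) p 1) ⟨rfl, fun q hq => by
        have : q ≠ p := by rintro rfl; exact hpl hq
        exact (Function.update_of_ne this _ _).symm⟩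
    have h2 : (if cl p a = cl p a then (if (0 : Fin 3) = 0 then τ else 1) else 1)⁻¹ *
        (if cl p b = cl p a then (if (0 : Fin 3) = 0 then τ else 1) else 1) =
        (if cl p a = cl p a then (if (Function.update (fun _ => (0 : Fin 3)) p 1 : P → Fin 3) p = 0
          then τ else 1) else 1)⁻¹ *
        (if cl p b = cl p a then (if (Function.update (fun _ => (0 : Fin 3)) p 1 : P → Fin 3) p = 0
          then τ else 1) else 1) := h1
    rw [if_pos rfl, if_pos rfl, if_neg hne, if_pos rfl, Function.update_self,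
      if_neg (by decide), if_neg hne, mul_one, mul_one, inv_one] at h2
    exact hτ1 (inv_eq_one.1 h2)
  have hdist : ∀ a b, S.d (mk (v a)) (mk (v b)) = δ a b := fun a b =>
    le_antisymm ((hdm _ _ _ (hδf a b)).2 (hle a b))
      (hge a b _ (S.fd _ _) ((hdm _ _ _ (S.fd _ _)).1 le_rfl))
  refine ⟨fun a => mk (v a), hdist, ?_, ?_⟩
  · -- incidences
    intro a b m m' hm hm' hC
    by_cases h1 : hi t ≤ m
    · exact ⟨b, (hhi' _ (hδf a b)).trans h1, by rw [hδs]; exact hlo' m' hm'.1⟩
    by_cases h2 : hi t ≤ m'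
    · exact ⟨a, by rw [hδs]; exact hlo' m hm.1, (hhi' _ (hδf a b)).trans h2⟩
    obtain ⟨p, hp⟩ := mp_jp hfhi hlo' hm h1
    obtain ⟨q, hq⟩ := mp_jp hfhi hlo' hm' h2
    by_contra hno
    have hnc : ¬ Cp p (cl p a) q (cl q b) := by
      rintro ⟨c, hc1, hc2⟩
      exact hno ⟨c, (hp _ (hδf a c)).2 ((hcl p a c).1 hc1.symm),
        (hq _ (hδf c b)).2 ((hcl q c b).1 hc2)⟩
    obtain ⟨z, hz1, hz2⟩ := hC
    obtain ⟨Z, rfl⟩ := hmk z
    rw [hdm _ _ _ hm.1] at hz1
    rw [hdm _ _ _ hm'.1] at hz2
    refine focus_fn p q (Bl m) (Bl m') (fun h => ?_) (fun h => ?_) hττ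
      (some (Sum.inr ((p, cl p a), (q, cl q b), false))) _ _ hz1 hz2 (fun w => ?_)
    · exact (hp p.1 p.2.1).1 h le_rfl
    · exact (hq q.1 q.2.1).1 h le_rfl
    · show ((v a (some (Sum.inr ((p, cl p a), (q, cl q b), false)), w))⁻¹ * Z _) *
        ((Z _)⁻¹ * v b (some (Sum.inr ((p, cl p a), (q, cl q b), false)), w)) = _
      rw [mul_assoc, mul_inv_cancel_left]
      show ((if cl p a = cl p a ∧ false = false then (if w p = 0 then τ else 1) else 1) *
        (if cl q a = cl q b ∧ (Cp p (cl p a) q (cl q b) ↔ false = true)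
          then (if w q = 0 then τ' else 1) else 1))⁻¹ *
        ((if cl p b = cl p a ∧ false = false then (if w p = 0 then τ else 1) else 1) *
        (if cl q b = cl q b ∧ (Cp p (cl p a) q (cl q b) ↔ false = true)
          then (if w q = 0 then τ' else 1) else 1)) = _
      rw [if_pos (show cl p a = cl p a ∧ false = false from ⟨rfl, rfl⟩),
        if_neg (show ¬ (cl q a = cl q b ∧ (Cp p (cl p a) q (cl q b) ↔ false = true)) from
          fun h => hnc ⟨a, rfl, h.1⟩),
        if_neg (show ¬ (cl p b = cl p a ∧ false = false) from fun h => hnc ⟨b, h.1, rfl⟩),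
        if_pos (show cl q b = cl q b ∧ (Cp p (cl p a) q (cl q b) ↔ false = true) from
          ⟨rfl, ⟨fun h => absurd h hnc, fun h => absurd h (by decide)⟩⟩), mul_one, one_mul]
  · -- extension
    intro A' σ hσ hinc
    have hs0 : ∀ p : P, ∃ s : Equiv.Perm (Fin n), ∀ a ∈ A', s (cl p a) = cl p (σ a) := by
      intro p
      obtain ⟨s, hs⟩ := exists_perm_extends (Z := Fin n)
        {pr | ∃ a ∈ A', pr = (cl p a, cl p (σ a))} (by
          rintro _ ⟨a, ha, rfl⟩ _ ⟨b, hb, rfl⟩
          show cl p a = cl p b ↔ cl p (σ a) = cl p (σ b)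
          rw [hcl, hcl, hσ a ha b hb])
      exact ⟨s, fun a ha => hs (cl p a, cl p (σ a)) ⟨a, ha, rfl⟩⟩
    choose s hs using hs0
    let U : P → Fin n → Prop := fun p u => ∃ a ∈ A', cl p a = u
    -- incidences are preserved
    have hCp : ∀ p q : P, ∀ a ∈ A', ∀ b ∈ A',
        (Cp p (cl p a) q (cl q b) ↔ Cp p (s p (cl p a)) q (s q (cl q b))) := by
      intro p q a ha b hb
      obtain ⟨mp, hmp1, hmp2⟩ : ∃ m, f m = t ∧ ∀ x, f x = t → (x ≤ m ↔ ¬ p.1 ≤ x) := by
        obtain ⟨m, ⟨hm1, hm2⟩, hmax⟩ :=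
          (Set.toFinite {x : L | f x = t ∧ ¬ p.1 ≤ x}).exists_maximal ⟨lo t, hflo, p.2.2.1⟩
        refine ⟨m, hm1, fun x hx => ⟨fun h h' => hm2 (h'.trans h), fun h => ?_⟩⟩
        have h1 : m ⊔ x ∈ {x : L | f x = t ∧ ¬ p.1 ≤ x} := by
          refine ⟨by rw [map_sup, hm1, hx, sup_idem], fun h' => ?_⟩
          rcases p.2.2.2 _ _ hm1 hx h' with h' | h'
          · exact hm2 h'
          · exact h h'
        exact le_sup_right.trans (hmax h1 le_sup_left)
      obtain ⟨mq, hmq1, hmq2⟩ : ∃ m, f m = t ∧ ∀ x, f x = t → (x ≤ m ↔ ¬ q.1 ≤ x) := by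
        obtain ⟨m, ⟨hm1, hm2⟩, hmax⟩ :=
          (Set.toFinite {x : L | f x = t ∧ ¬ q.1 ≤ x}).exists_maximal ⟨lo t, hflo, q.2.2.1⟩
        refine ⟨m, hm1, fun x hx => ⟨fun h h' => hm2 (h'.trans h), fun h => ?_⟩⟩
        have h1 : m ⊔ x ∈ {x : L | f x = t ∧ ¬ q.1 ≤ x} := by
          refine ⟨by rw [map_sup, hm1, hx, sup_idem], fun h' => ?_⟩
          rcases q.2.2.2 _ _ hm1 hx h' with h' | h'
          · exact hm2 h'
          · exact h h'
        exact le_sup_right.trans (hmax h1 le_sup_left)
      rw [hs p a ha, hs q b hb]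
      have key : ∀ a b : A, Cp p (cl p a) q (cl q b) ↔ ∃ c, δ c a ≤ mp ∧ δ c b ≤ mq := by
        intro a b
        constructor
        · rintro ⟨c, hc1, hc2⟩
          exact ⟨c, (hmp2 _ (hδf _ _)).2 ((hcl p _ _).1 hc1),
            (hmq2 _ (hδf _ _)).2 ((hcl q _ _).1 hc2)⟩
        · rintro ⟨c, hc1, hc2⟩
          exact ⟨c, (hcl p _ _).2 ((hmp2 _ (hδf _ _)).1 hc1),
            (hcl q _ _).2 ((hmq2 _ (hδf _ _)).1 hc2)⟩
      rw [key, key]
      exact hinc a ha b hb mp mq hmp1 hmq1
    let κ : Equiv.Perm (Mi P n) :=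
      Equiv.ofBijective (kp s U Cp) (Finite.injective_iff_bijective.1 (kp_inj s U Cp))
    let g0 : Equiv.Perm (Om (Mi P n) P) := Equiv.prodCongr κ (Equiv.piCongrRight (fun _ => 1))
    have hg0 : g0 ∈ Hs (Mi P n) P := e1_mem _ _
    have hg0a : ∀ m w, g0 (m, w) = (kp s U Cp m, w) := fun _ _ => rfl
    have hv : ∀ a ∈ A', (fun x => v (σ a) (g0 x)) = v a := by
      intro a ha
      funext ⟨m, w⟩
      rw [hg0a]
      rcases m with _ | ⟨p, u⟩ | ⟨⟨p, u⟩, ⟨q, u'⟩, β⟩
      · rfl
      · show (if cl p (σ a) = s p u then (if w p = 0 then τ else 1) else 1) =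
          (if cl p a = u then (if w p = 0 then τ else 1) else 1)
        exact if_congr (by rw [← hs p a ha]; exact (s p).injective.eq_iff) rfl rfl
      · show (if cl p (σ a) = s p u ∧ (if U p u ∨ (Cp p u q u' ↔ Cp p (s p u) q (s q u'))
            then β else !β) = false then (if w p = 0 then τ else 1) else 1) *
          (if cl q (σ a) = s q u' ∧ (Cp p (s p u) q (s q u') ↔
            (if U p u ∨ (Cp p u q u' ↔ Cp p (s p u) q (s q u')) then β else !β) = true)
            then (if w q = 0 then τ' else 1) else 1) =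
          (if cl p a = u ∧ β = false then (if w p = 0 then τ else 1) else 1) *
          (if cl q a = u' ∧ (Cp p u q u' ↔ β = true) then (if w q = 0 then τ' else 1) else 1)
        have e1 : (cl p (σ a) = s p u ∧ (if U p u ∨ (Cp p u q u' ↔ Cp p (s p u) q (s q u'))
            then β else !β) = false) ↔ (cl p a = u ∧ β = false) := by
          rw [← hs p a ha, (s p).injective.eq_iff]
          constructor
          · rintro ⟨h1, h2⟩
            have hU : U p u := ⟨a, ha, h1⟩
            rw [if_pos (Or.inl hU)] at h2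
            exact ⟨h1, h2⟩
          · rintro ⟨h1, h2⟩
            have hU : U p u := ⟨a, ha, h1⟩
            rw [if_pos (Or.inl hU)]
            exact ⟨h1, h2⟩
        have e2 : (cl q (σ a) = s q u' ∧ (Cp p (s p u) q (s q u') ↔
            (if U p u ∨ (Cp p u q u' ↔ Cp p (s p u) q (s q u')) then β else !β) = true)) ↔
            (cl q a = u' ∧ (Cp p u q u' ↔ β = true)) := by
          rw [← hs q a ha, (s q).injective.eq_iff]
          refine and_congr_right (fun h1 => ?_)
          by_cases hU : U p u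
          · rw [if_pos (Or.inl hU)]
            obtain ⟨b, hb, hbu⟩ := hU
            have h3 := hCp p q b hb a ha
            rw [hbu, h1] at h3
            rw [h3]
          · by_cases hcc : Cp p u q u' ↔ Cp p (s p u) q (s q u')
            · rw [if_pos (Or.inr hcc), hcc]
            · rw [if_neg (by
                rintro (h | h)
                · exact hU h
                · exact hcc h)]
              by_cases hc : Cp p u q u'
              · have hc' : ¬ Cp p (s p u) q (s q u') := fun h => hcc ⟨fun _ => h, fun _ => hc⟩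
                cases β <;> simp [hc, hc']
              · have hc' : Cp p (s p u) q (s q u') := by
                  by_contra h
                  exact hcc ⟨fun h' => absurd h' hc, fun h' => absurd h' h⟩
                cases β <;> simp [hc, hc']
        rw [if_congr e1 rfl rfl, if_congr e2 rfl rfl]
    obtain ⟨ρ, hρB, hρ⟩ := hrho g0 hg0
    refine ⟨ρ⁻¹, B.inv_mem hρB, fun a ha => ?_⟩
    rw [Equiv.Perm.inv_eq_iff_eq, hρ, hv a ha]

end Vale.Agent.P183.H330D
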