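import Vale.Agent.P183.H330D.Final
import Vale.Agent.P183.H330D.Defs
import Vale.Agent.P183.H330G.Final
import Vale.Agent.P183.H330T.Clauses
import Vale.Agent.P183.Bdl.B3

/-!
Consequences of the extension theorem.
-/

namespace Vale.Agent.P183.H330D

open Vale.Agent.P183

theorem rep_of_distribFibres {L K : Type} [Lattice L] [Finite L] [Lattice K]
    (f : LatticeHom L K) (hf : Function.Surjective f) (hd : DistribFibres f)
    (hK : Representable K) : Representable L :=
  ext_distrib_all f hf hK hd

theorem rep_of_series (L : Type) [Lattice L] (h : DistribSeries L) : Representable L := by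
  induction h with
  | point L => exact representable_unique L
  | ext L K f hf hd hK ih => exact ext_distrib_all f hf ih hd

theorem rep_of_narrow {L K : Type} [Lattice L] [Finite L] [Lattice K]
    (f : LatticeHom L K) (hf : Function.Surjective f) (hK : Representable K)
    (hg : IsGroupInterval {l : L // IsMin (f l)}) (hn : NarrowAboveLeast f) : Representable L :=
  H330G.ext_width f hf hK hg hn

theorem rep_of_tree {L K : Type} [Lattice L] [Finite L] [Lattice K]
    (f : LatticeHom L K) (hf : Function.Surjective f) (hK : Representable K)
    (hT : TreeLike K) (hg : IsGroupInterval {l : L // IsMin (f l)})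
    (hn : DistribAboveLeast f) : Representable L :=
  H330T.ext_tree f hf hK hT hg hn

/-- The image of a homomorphism from a finite lattice is smaller when the homomorphism is not
injective. -/
theorem card_im_lt {L K : Type} [Lattice L] [Finite L] [Lattice K] (f : LatticeHom L K)
    (hf : ¬ Function.Injective f) : Nat.card (imS f) < Nat.card L := by
  classical
  have hfin : Finite (imS f) := Finite.of_surjective _ (toIm_surj f)
  cases nonempty_fintype L
  cases nonempty_fintype (imS f)
  rw [Nat.card_eq_fintype_card, Nat.card_eq_fintype_card]
  refine Fintype.card_lt_of_surjective_not_injective (toIm f) (toIm_surj f) ?_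
  intro h
  apply hf
  intro x y hxy
  exact h (Subtype.ext hxy)

/-- **Reduction of the problem.** -/
theorem reduction :
    (∀ (L : Type) [Lattice L] [Finite L] [Nonempty L], Representable L) ↔
      ∀ (L : Type) [Lattice L] [Finite L] [Nonempty L], Reduced L → Representable L := by
  constructor
  · intro h L _ _ _ _
    exact h L
  intro H
  have key : ∀ n, ∀ (L : Type) [Lattice L] [Finite L] [Nonempty L], Nat.card L = n →
      Representable L := by
    intro n
    induction n using Nat.strong_induction_on with
    | _ n ih =>
      intro L _ _ _ hn
      by_cases h1 : SubdirectlyIrreducible L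
      · by_cases h2 : ∀ (K : Type) (_ : Lattice K) (f : LatticeHom L K),
          ¬ Function.Injective f → ¬ DistribFibres f
        · exact H L ⟨h1, h2⟩
        · push Not at h2
          obtain ⟨K, _, f, hf, hd⟩ := h2
          have hfin : Finite (imS f) := Finite.of_surjective _ (toIm_surj f)
          have hnon : Nonempty (imS f) := ⟨toIm f (Classical.arbitrary L)⟩
          refine ext_distrib_all (toIm f) (toIm_surj f)
            (ih _ (by rw [← hn]; exact card_im_lt f hf) (imS f) rfl) ?_
          intro x y z hxy hyz
          exact hd x y z (congrArg Subtype.val hxy) (congrArg Subtype.val hyz)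
      · apply representable_of_separated
        intro a b hab
        have h3 : ∃ (K : Type) (_ : Lattice K) (f : LatticeHom L K),
            ¬ Function.Injective f ∧ f a ≠ f b := by
          by_contra hc
          push Not at hc
          exact h1 ⟨a, b, hab, hc⟩
        obtain ⟨K, _, f, hf, hne⟩ := h3
        have hfin : Finite (imS f) := Finite.of_surjective _ (toIm_surj f)
        have hnon : Nonempty (imS f) := ⟨toIm f (Classical.arbitrary L)⟩
        refine ⟨imS f, inferInstance, toIm f, toIm_surj f,
          ih _ (by rw [← hn]; exact card_im_lt f hf) (imS f) rfl, ?_⟩
        intro h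
        exact hne (congrArg Subtype.val h)
  intro L _ _ _
  exact key _ L rfl

end Vale.Agent.P183.H330D
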