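import Vale.Agent.P183.H330D.Core
import Vale.Agent.P183.H330D.Fun

/-!
The flag space of a distributive fibre.
-/

namespace Vale.Agent.P183.H330D

open Vale.Agent.P183 Vale.Agent.P183.H330 Vale.Agent.P183.H330G

variable {L K : Type} [Lattice L] [Lattice K] {f : LatticeHom L K} {lo hi : K → L} {t : K}

/-- Join primes of the fibre over `t`. -/
def JP (f : LatticeHom L K) (lo : K → L) (t : K) : Type :=
  {p : L // f p = t ∧ ¬ p ≤ lo t ∧ ∀ x y, f x = t → f y = t → p ≤ x ⊔ y → p ≤ x ∨ p ≤ y}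

instance : PartialOrder (JP f lo t) := inferInstanceAs (PartialOrder {_p : L // _})

instance [Finite L] : Finite (JP f lo t) := inferInstanceAs (Finite {_p : L // _})

theorem jsep [Finite L] (hlo' : ∀ l, f l = t → lo t ≤ l)
    (hd : ∀ x y z, f x = t → f y = t → f z = t → (x ⊓ y) ⊔ z = (x ⊔ z) ⊓ (y ⊔ z)) {a b : L}
    (ha : f a = t) (hb : f b = t) (h : ∀ p : JP f lo t, p.1 ≤ a → p.1 ≤ b) : a ≤ b := by
  by_contra hab
  obtain ⟨p, ⟨hp1, hp2, hp3⟩, hmin⟩ :=
    (Set.toFinite {y : L | f y = t ∧ y ≤ a ∧ ¬ y ≤ b}).exists_minimal ⟨a, ha, le_rfl, hab⟩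
  have key : ∀ x, f x = t → ¬ p ≤ x → p ⊓ x ≤ b := by
    intro x hx hpx
    by_contra hc
    have h1 : p ⊓ x ∈ {y : L | f y = t ∧ y ≤ a ∧ ¬ y ≤ b} :=
      ⟨by rw [map_inf, hp1, hx, inf_idem], inf_le_left.trans hp2, hc⟩
    exact hpx ((hmin h1 inf_le_left).trans inf_le_right)
  have hj : ∀ x y, f x = t → f y = t → p ≤ x ⊔ y → p ≤ x ∨ p ≤ y := by
    intro x y hx hy hxy
    by_contra hc
    push Not at hc
    apply hp3
    have h1 := key x hx hc.1
    have h2 := key y hy hc.2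
    have hpy : f (p ⊓ y) = t := by rw [map_inf, hp1, hy, inf_idem]
    have h3 : (p ⊓ x) ⊔ (p ⊓ y) = p := by
      rw [hd p x (p ⊓ y) hp1 hx hpy, sup_eq_left.2 inf_le_left, sup_comm x, hd p y x hp1 hy hx]
      exact le_antisymm inf_le_left (le_inf le_rfl (le_inf le_sup_left (by
        rw [sup_comm]; exact hxy)))
    rw [← h3]
    exact sup_le h1 h2
  exact hp3 (h ⟨p, hp1, fun hc => hp3 (hc.trans (hlo' b hb)), hj⟩ hp2)

theorem exists_join [Finite L] (hfhi : f (hi t) = t) (hhi' : ∀ l, f l = t → l ≤ hi t)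
    (Q : JP f lo t → Prop) :
    ∃ c, f c = t ∧ ∀ l, f l = t → (c ≤ l ↔ ∀ p, Q p → p.1 ≤ l) := by
  obtain ⟨z, ⟨hz1, hz2⟩, hmin⟩ :=
    (Set.toFinite {l : L | f l = t ∧ ∀ p, Q p → p.1 ≤ l}).exists_minimal
      ⟨hi t, hfhi, fun p _ => hhi' _ p.2.1⟩
  refine ⟨z, hz1, fun l hl => ⟨fun h p hp => (hz2 p hp).trans h, fun h => ?_⟩⟩
  have h1 : z ⊓ l ∈ {l : L | f l = t ∧ ∀ p, Q p → p.1 ≤ l} :=
    ⟨by rw [map_inf, hz1, hl, inf_idem], fun p hp => le_inf (hz2 p hp) (h p hp)⟩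
  exact (hmin h1 inf_le_left).trans inf_le_right

theorem jp_le [Finite L] (hflo : f (lo t) = t) (p : JP f lo t) (Q : JP f lo t → Prop) {c : L}
    (hc : ∀ l, f l = t → (c ≤ l ↔ ∀ p, Q p → p.1 ≤ l)) (h : p.1 ≤ c) : ∃ q, p ≤ q ∧ Q q := by
  by_contra hno
  push Not at hno
  obtain ⟨m, ⟨hm1, hm2⟩, hmax⟩ :=
    (Set.toFinite {x : L | f x = t ∧ ¬ p.1 ≤ x}).exists_maximal ⟨lo t, hflo, p.2.2.1⟩
  refine hm2 (h.trans ((hc m hm1).2 (fun q hq => ?_)))
  have hpq : ¬ p.1 ≤ q.1 := fun h => hno q h hq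
  have h1 : m ⊔ q.1 ∈ {x : L | f x = t ∧ ¬ p.1 ≤ x} := by
    refine ⟨by rw [map_sup, hm1, q.2.1, sup_idem], fun h => ?_⟩
    rcases p.2.2.2 _ _ hm1 q.2.1 h with h | h
    · exact hm2 h
    · exact hpq h
  exact le_sup_right.trans (hmax h1 le_sup_left)

theorem mp_jp [Finite L] (hfhi : f (hi t) = t) (hlo' : ∀ l, f l = t → lo t ≤ l) {m : L}
    (hm : MP f t m) (hne : ¬ hi t ≤ m) :
    ∃ p : JP f lo t, ∀ x, f x = t → (x ≤ m ↔ ¬ p.1 ≤ x) := by
  obtain ⟨p, ⟨hp1, hp2⟩, hmin⟩ :=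
    (Set.toFinite {x : L | f x = t ∧ ¬ x ≤ m}).exists_minimal ⟨hi t, hfhi, hne⟩
  have hle : ∀ x, f x = t → ¬ x ≤ m → p ≤ x := by
    intro x hx hxm
    have h1 : p ⊓ x ∈ {x : L | f x = t ∧ ¬ x ≤ m} := by
      refine ⟨by rw [map_inf, hp1, hx, inf_idem], fun h => ?_⟩
      rcases hm.2 _ _ hp1 hx h with h | h
      · exact hp2 h
      · exact hxm h
    exact (hmin h1 inf_le_left).trans inf_le_right
  refine ⟨⟨p, hp1, fun h => hp2 (h.trans (hlo' m hm.1)), fun x y hx hy hxy => ?_⟩,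
    fun x hx => ⟨fun h h' => hp2 (h'.trans h), fun h => ?_⟩⟩
  · by_contra hc
    push Not at hc
    have h1 : x ≤ m := by
      by_contra h; exact hc.1 (hle x hx h)
    have h2 : y ≤ m := by
      by_contra h; exact hc.2 (hle y hy h)
    exact hp2 (hxy.trans (sup_le h1 h2))
  · by_contra h'
    exact h (hle x hx h')

/-- The coordinates below `l`. -/
def Bl (l : L) (p : JP f lo t) : Prop := p.1 ≤ l

theorem bl_lower (l : L) : ∀ p q : JP f lo t, p ≤ q → Bl l q → Bl l p :=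
  fun _ _ h h' => le_trans (show _ ≤ _ from h) h'

/-- The space of functions modulo functions of the first coordinate. -/
theorem exists_spc [Finite L] (hflo : f (lo t) = t) (hfhi : f (hi t) = t)
    (hlo' : ∀ l, f l = t → lo t ≤ l) (hhi' : ∀ l, f l = t → l ≤ hi t)
    (M T : Type) [Finite M] [Group T] [Finite T] :
    ∃ (S : Sp f lo t) (mk : (Om M (JP f lo t) → T) → S.X), Function.Surjective mk ∧
      ∀ F G l, f l = t → (S.d (mk F) (mk G) ≤ l ↔ Dep (Bl l) (F⁻¹ * G)) := by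
  classical
  let P := JP f lo t
  let fs : Setoid (Om M P → T) :=
    { r := fun F G => Dep (fun _ => False) (F⁻¹ * G)
      iseqv := ⟨fun F => by rw [inv_mul_cancel]; exact Dep.one, fun {F G} h => by
        have := h.inv
        rwa [mul_inv_rev, inv_inv] at this, fun {F G H} h h' => by
        have := h.mul h'
        rwa [mul_assoc, mul_inv_cancel_left] at this⟩ }
  have hfs : ∀ F G : Om M P → T, (Quotient.mk fs F = Quotient.mk fs G) ↔
      Dep (fun _ => False) (F⁻¹ * G) := fun F G => Quotient.eq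
  have hcongr : ∀ (Q : P → Prop) (F F' G G' : Om M P → T), Quotient.mk fs F = Quotient.mk fs F' →
      Quotient.mk fs G = Quotient.mk fs G' → Dep Q (F⁻¹ * G) → Dep Q (F'⁻¹ * G') := by
    intro Q F F' G G' h1 h2 h
    have h1' := ((hfs _ _).1 h1.symm).mono (Q' := Q) (fun _ => False.elim)
    have h2' := ((hfs _ _).1 h2).mono (Q' := Q) (fun _ => False.elim)
    have := (h1'.mul h).mul h2'
    have e : F'⁻¹ * F * (F⁻¹ * G) * (G⁻¹ * G') = F'⁻¹ * G' := by group
    rwa [e] at this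
  have hJ : ∀ x y : Quotient fs, ∃ c, f c = t ∧
      ∀ l, f l = t → (c ≤ l ↔ Dep (Bl l) (x.out⁻¹ * y.out)) := by
    intro x y
    obtain ⟨c, hc1, hc2⟩ := exists_join (lo := lo) hfhi hhi' (fun p => Ess p (x.out⁻¹ * y.out))
    exact ⟨c, hc1, fun l hl => (hc2 l hl).trans dep_iff.symm⟩
  choose d hd1 hd2 using hJ
  have hd : ∀ (F G : Om M P → T) l, f l = t →
      (d (Quotient.mk fs F) (Quotient.mk fs G) ≤ l ↔ Dep (Bl l) (F⁻¹ * G)) := by
    intro F G l hl
    rw [hd2 _ _ l hl]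
    exact ⟨hcongr _ _ _ _ _ (Quotient.out_eq _) (Quotient.out_eq _),
      hcongr _ _ _ _ _ (Quotient.out_eq _).symm (Quotient.out_eq _).symm⟩
  have hno : ∀ p : P, Bl (lo t) p → False := fun p h => p.2.2.1 h
  let S : Sp f lo t :=
    { X := Quotient fs
      fin := inferInstance
      ne := ⟨Quotient.mk fs 1⟩
      d := d
      fd := hd1
      self := by
        intro x y
        obtain ⟨F, rfl⟩ := Quotient.exists_rep x
        obtain ⟨G, rfl⟩ := Quotient.exists_rep y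
        rw [hfs]
        constructor
        · intro h
          exact ((hd F G (lo t) hflo).1 h.le).mono hno
        · intro h
          exact le_antisymm ((hd F G (lo t) hflo).2 (h.mono (fun _ => False.elim)))
            (hlo' _ (hd1 _ _))
      symm := by
        have key : ∀ x y, d x y ≤ d y x := by
          intro x y
          obtain ⟨F, rfl⟩ := Quotient.exists_rep x
          obtain ⟨G, rfl⟩ := Quotient.exists_rep y
          rw [hd F G _ (hd1 _ _)]
          have := ((hd G F _ (hd1 _ _)).1 le_rfl).inv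
          rwa [mul_inv_rev, inv_inv] at this
        exact fun x y => le_antisymm (key x y) (key y x)
      tri := by
        intro x y z
        obtain ⟨F, rfl⟩ := Quotient.exists_rep x
        obtain ⟨G, rfl⟩ := Quotient.exists_rep y
        obtain ⟨H, rfl⟩ := Quotient.exists_rep z
        have hf : f (d (Quotient.mk fs F) (Quotient.mk fs G) ⊔
            d (Quotient.mk fs G) (Quotient.mk fs H)) = t := by
          rw [map_sup, hd1, hd1, sup_idem]
        rw [hd F H _ hf]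
        have h1 := ((hd F G _ hf).1 le_sup_left).mul ((hd G H _ hf).1 le_sup_right)
        rwa [mul_assoc, mul_inv_cancel_left] at h1 }
  exact ⟨S, Quotient.mk fs, Quotient.mk_surjective, hd⟩

theorem exists_perm_mk {E X : Type} (mk : E → X) (hs : Function.Surjective mk) (φ φ' : E → E)
    (h1 : ∀ F G, mk F = mk G → mk (φ F) = mk (φ G))
    (h2 : ∀ F G, mk F = mk G → mk (φ' F) = mk (φ' G))
    (h3 : ∀ F, φ' (φ F) = F) (h4 : ∀ F, φ (φ' F) = F) :
    ∃ π : Equiv.Perm X, ∀ F, π (mk F) = mk (φ F) := by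
  choose r hr using hs
  have e1 : ∀ F, mk (φ (r (mk F))) = mk (φ F) := fun F => h1 _ _ (hr _)
  have e2 : ∀ F, mk (φ' (r (mk F))) = mk (φ' F) := fun F => h2 _ _ (hr _)
  refine ⟨⟨fun x => mk (φ (r x)), fun x => mk (φ' (r x)), fun x => ?_, fun x => ?_⟩, e1⟩
  · show mk (φ' (r (mk (φ (r x))))) = x
    rw [e2, h3, hr]
  · show mk (φ (r (mk (φ' (r x))))) = x
    rw [e1, h4, hr]

theorem dep_comp {P M T : Type} [PartialOrder P] {Q : P → Prop}
    (hQ : ∀ p q, p ≤ q → Q q → Q p) {h : Equiv.Perm (Om M P)} (hh : h ∈ Hs M P)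
    {ψ : Om M P → T} (hD : Dep Q ψ) : Dep Q (fun x => ψ (h x)) :=
  fun x y hxy => hD _ _ ((hh Q hQ x y).2 hxy)

theorem dep_comp' {P M T : Type} [PartialOrder P] {Q : P → Prop}
    (hQ : ∀ p q, p ≤ q → Q q → Q p) {h : Equiv.Perm (Om M P)} (hh : h ∈ Hs M P)
    {ψ : Om M P → T} : Dep Q (fun x => ψ (h x)) ↔ Dep Q ψ := by
  refine ⟨fun hD => ?_, dep_comp hQ hh⟩
  have h1 := dep_comp hQ ((Hs M P).inv_mem hh) hD
  have e : (fun x => ψ (h (h⁻¹ x))) = ψ := by
    funext x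
    rw [show h (h⁻¹ x) = x from h.apply_symm_apply x]
  have h2 : Dep Q (fun x => ψ (h (h⁻¹ x))) := h1
  rwa [e] at h2

/-- Transport along the group. -/
theorem intOK_transport {S : Sp f lo t} {B : Subgroup (Equiv.Perm S.X)} (hB : B ≤ isoSub S)
    {τ : Equiv.Perm S.X} (hτ : τ ∈ B) {ω0 : S.X} (h : IntOK S B ω0) : IntOK S B (τ ω0) := by
  have hiso : ∀ a b, S.d (τ a) (τ b) = S.d a b := hB hτ
  have hinv : τ⁻¹ ∈ B := B.inv_mem hτ
  constructor
  · intro W hW1 hW2
    let W' : Subgroup (Equiv.Perm S.X) := W.comap (MulAut.conj τ).toMonoidHom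
    have hW' : ∀ g, g ∈ W' ↔ τ * g * τ⁻¹ ∈ W := fun g => Iff.rfl
    obtain ⟨c, hc1, hc2⟩ := h.1 W' (by
      intro g hg
      have h1 := hW1 ((hW' g).1 hg)
      have h2 := B.mul_mem (B.mul_mem hinv h1) hτ
      have e : τ⁻¹ * (τ * g * τ⁻¹) * τ = g := by group
      rwa [e] at h2) (by
      intro g hg hgω
      refine (hW' g).2 (hW2 _ (B.mul_mem (B.mul_mem hτ hg) hinv) ?_)
      show τ (g (τ⁻¹ (τ ω0))) = τ ω0
      rw [show τ⁻¹ (τ ω0) = ω0 from τ.symm_apply_apply ω0, hgω])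
    refine ⟨c, hc1, fun g hg => ?_⟩
    have h3 := hc2 (τ⁻¹ * g * τ) (B.mul_mem (B.mul_mem hinv hg) hτ)
    rw [hW'] at h3
    have e : τ * (τ⁻¹ * g * τ) * τ⁻¹ = g := by group
    rw [e] at h3
    rw [h3]
    have e2 : S.d ((τ⁻¹ * g * τ) ω0) ω0 = S.d (g (τ ω0)) (τ ω0) := by
      rw [← hiso]
      show S.d (τ (τ⁻¹ (g (τ ω0)))) (τ ω0) = _
      rw [show τ (τ⁻¹ (g (τ ω0))) = g (τ ω0) from τ.apply_symm_apply _]
    rw [e2]
  · intro a b ha hb hab
    refine h.2 a b ha hb (fun g hg hga => ?_)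
    have h1 := hab (τ * g * τ⁻¹) (B.mul_mem (B.mul_mem hτ hg) hinv)
    have e : S.d ((τ * g * τ⁻¹) (τ ω0)) (τ ω0) = S.d (g ω0) ω0 := by
      show S.d (τ (g (τ⁻¹ (τ ω0)))) (τ ω0) = _
      rw [show τ⁻¹ (τ ω0) = ω0 from τ.symm_apply_apply ω0, hiso]
    rw [e] at h1
    exact h1 hga

/-- The group acting on the space of functions: existence, intervals, flags. -/
theorem exists_grp [Finite L] (hflo : f (lo t) = t) (hfhi : f (hi t) = t)
    (hlo' : ∀ l, f l = t → lo t ≤ l) (hhi' : ∀ l, f l = t → l ≤ hi t)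
    (hd : ∀ x y z, f x = t → f y = t → f z = t → (x ⊓ y) ⊔ z = (x ⊔ z) ⊓ (y ⊔ z))
    (M T : Type) [Finite M] [Nonempty M] [Group T] [Finite T] [IsSimpleGroup T]
    (hT : ∃ a b : T, a * b ≠ b * a) :
    ∃ (S : Sp f lo t) (mk : (Om M (JP f lo t) → T) → S.X) (B : Subgroup (Equiv.Perm S.X)),
      (∀ F G l, f l = t → (S.d (mk F) (mk G) ≤ l ↔ Dep (Bl l) (F⁻¹ * G))) ∧
      Function.Surjective mk ∧
      (∀ h ∈ Hs M (JP f lo t), ∃ π ∈ B, ∀ F, π (mk F) = mk (fun x => F (h x))) ∧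
      B ≤ isoSub S ∧ (∀ ω, IntOK S B ω) ∧ FlagOK S := by
  classical
  obtain ⟨S, mk, hmk, hdm⟩ := exists_spc hflo hfhi hlo' hhi' M T
  have hno : ∀ p : JP f lo t, Bl (lo t) p → False := fun p h => p.2.2.1 h
  have heq : ∀ F G : Om M (JP f lo t) → T, mk F = mk G ↔ Dep (Bl (lo t)) (F⁻¹ * G) := by
    intro F G
    rw [← hdm F G (lo t) hflo, ← S.self]
    exact ⟨fun h => h.le, fun h => le_antisymm h (hlo' _ (S.fd _ _))⟩
  -- the maps
  have hact : ∀ (u : Om M (JP f lo t) → T), ∀ h ∈ Hs M (JP f lo t), ∃ π : Equiv.Perm S.X,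
      ∀ F, π (mk F) = mk (fun x => u x * F (h x)) := by
    intro u h hh
    refine exists_perm_mk mk hmk (fun F x => u x * F (h x))
      (fun F x => (u (h⁻¹ x))⁻¹ * F (h⁻¹ x)) ?_ ?_ ?_ ?_
    · intro F G hFG
      rw [heq] at hFG ⊢
      have e : (fun x => u x * F (h x))⁻¹ * (fun x => u x * G (h x)) =
          fun x => (F⁻¹ * G) (h x) := by
        funext x
        show (u x * F (h x))⁻¹ * (u x * G (h x)) = (F (h x))⁻¹ * G (h x)
        group
      rw [e]
      exact dep_comp (bl_lower _) hh hFG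
    · intro F G hFG
      rw [heq] at hFG ⊢
      have e : (fun x => (u (h⁻¹ x))⁻¹ * F (h⁻¹ x))⁻¹ * (fun x => (u (h⁻¹ x))⁻¹ * G (h⁻¹ x)) =
          fun x => (F⁻¹ * G) (h⁻¹ x) := by
        funext x
        show ((u (h⁻¹ x))⁻¹ * F (h⁻¹ x))⁻¹ * ((u (h⁻¹ x))⁻¹ * G (h⁻¹ x)) =
          (F (h⁻¹ x))⁻¹ * G (h⁻¹ x)
        group
      rw [e]
      exact dep_comp (bl_lower _) ((Hs M (JP f lo t)).inv_mem hh) hFG
    · intro F
      funext x
      show (u (h⁻¹ x))⁻¹ * (u (h⁻¹ x) * F (h (h⁻¹ x))) = F x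
      rw [show h (h⁻¹ x) = x from h.apply_symm_apply x]
      group
    · intro F
      funext x
      show u x * ((u (h⁻¹ (h x)))⁻¹ * F (h⁻¹ (h x))) = F x
      rw [show h⁻¹ (h x) = x from h.symm_apply_apply x]
      group
  have hext : ∀ π π' : Equiv.Perm S.X, (∀ F, π (mk F) = π' (mk F)) → π = π' := by
    intro π π' h
    refine Equiv.ext (fun x => ?_)
    obtain ⟨F, rfl⟩ := hmk x
    exact h F
  let B : Subgroup (Equiv.Perm S.X) :=
    { carrier := {π | ∃ u : Om M (JP f lo t) → T, ∃ h ∈ Hs M (JP f lo t),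
        ∀ F, π (mk F) = mk (fun x => u x * F (h x))}
      one_mem' := ⟨1, 1, (Hs M (JP f lo t)).one_mem, fun F => by
        show mk F = _
        congr 1
        funext x
        exact (one_mul _).symm⟩
      mul_mem' := by
        rintro π π' ⟨u, h, hh, hπ⟩ ⟨u', h', hh', hπ'⟩
        refine ⟨fun x => u x * u' (h x), h' * h, (Hs M (JP f lo t)).mul_mem hh' hh, fun F => ?_⟩
        show π (π' (mk F)) = _
        rw [hπ', hπ]
        congr 1
        funext x
        show u x * (u' (h x) * F (h' (h x))) = u x * u' (h x) * F (h' (h x))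
        rw [mul_assoc]
      inv_mem' := by
        rintro π ⟨u, h, hh, hπ⟩
        refine ⟨fun x => (u (h⁻¹ x))⁻¹, h⁻¹, (Hs M (JP f lo t)).inv_mem hh, fun F => ?_⟩
        rw [Equiv.Perm.inv_eq_iff_eq, hπ]
        congr 1
        funext x
        show F x = u x * ((u (h⁻¹ (h x)))⁻¹ * F (h⁻¹ (h x)))
        rw [show h⁻¹ (h x) = x from h.symm_apply_apply x]
        group }
  have hBmem : ∀ π, π ∈ B ↔ ∃ u : Om M (JP f lo t) → T, ∃ h ∈ Hs M (JP f lo t),
        ∀ F, π (mk F) = mk (fun x => u x * F (h x)) := fun _ => Iff.rfl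
  have hBiso : B ≤ isoSub S := by
    rintro π ⟨u, h, hh, hπ⟩ x y
    obtain ⟨F, rfl⟩ := hmk x
    obtain ⟨G, rfl⟩ := hmk y
    have e : (fun x => u x * F (h x))⁻¹ * (fun x => u x * G (h x)) =
        fun x => (F⁻¹ * G) (h x) := by
      funext x
      show (u x * F (h x))⁻¹ * (u x * G (h x)) = (F (h x))⁻¹ * G (h x)
      group
    have key : ∀ l, f l = t → (S.d (π (mk F)) (π (mk G)) ≤ l ↔ S.d (mk F) (mk G) ≤ l) := by
      intro l hl
      rw [hπ, hπ, hdm _ _ l hl, hdm _ _ l hl, e]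
      exact dep_comp' (bl_lower _) hh
    exact le_antisymm ((key _ (S.fd _ _)).2 le_rfl) ((key _ (S.fd _ _)).1 le_rfl)
  -- translations
  have hlam0 : ∀ u : Om M (JP f lo t) → T, ∃ π : Equiv.Perm S.X, ∀ F, π (mk F) = mk (u * F) :=
    fun u => hact u 1 (Hs M (JP f lo t)).one_mem
  choose lam hlam using hlam0
  have hlamB : ∀ u, lam u ∈ B := fun u => ⟨u, 1, (Hs M (JP f lo t)).one_mem, hlam u⟩
  have hlam_mul : ∀ u v, lam (u * v) = lam u * lam v := by
    intro u v
    refine hext _ _ (fun F => ?_)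
    show lam (u * v) (mk F) = lam u (lam v (mk F))
    rw [hlam, hlam, hlam, mul_assoc]
  have hlam_one : lam 1 = 1 := by
    refine hext _ _ (fun F => ?_)
    rw [hlam, one_mul]
    rfl
  have hlam_inv : ∀ u, lam u⁻¹ = (lam u)⁻¹ := by
    intro u
    rw [eq_inv_iff_mul_eq_one, ← hlam_mul, inv_mul_cancel, hlam_one]
  have hrho : ∀ h ∈ Hs M (JP f lo t), ∃ π ∈ B, ∀ F, π (mk F) = mk (fun x => F (h x)) := by
    intro h hh
    obtain ⟨π, hπ⟩ := hact 1 h hh
    have hπ' : ∀ F, π (mk F) = mk (fun x => F (h x)) := by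
      intro F
      rw [hπ]
      congr 1
      funext x
      exact one_mul _
    exact ⟨π, ⟨1, h, hh, hπ⟩, hπ'⟩
  obtain ⟨s0, s1, hs⟩ := hT
  have hs0 : s0 ≠ 1 := by
    rintro rfl
    exact hs (by rw [one_mul, mul_one])
  have hint : IntOK S B (mk 1) := by
    constructor
    · intro W hW1 hW2
      let Y : Subgroup (Om M (JP f lo t) → T) :=
        { carrier := {u | lam u ∈ W}
          one_mem' := by show lam 1 ∈ W; rw [hlam_one]; exact W.one_mem
          mul_mem' := by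
            intro u v hu hv
            show lam (u * v) ∈ W
            rw [hlam_mul]; exact W.mul_mem hu hv
          inv_mem' := by
            intro u hu
            show lam u⁻¹ ∈ W
            rw [hlam_inv]; exact W.inv_mem hu }
      have hY : ∀ u, u ∈ Y ↔ lam u ∈ W := fun _ => Iff.rfl
      have hcl := classify ⟨s0, s1, hs⟩ Y (by
        intro ψ hψ
        refine (hY ψ).2 (hW2 _ (hlamB ψ) ?_)
        rw [hlam, mul_one, heq]
        rw [mul_one]
        exact (hψ.mono (fun _ => False.elim)).inv) (by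
        intro h hh ψ hψ
        obtain ⟨ρ, hρB, hρ⟩ := hrho h hh
        have hρW : ρ ∈ W := hW2 ρ hρB (by rw [hρ]; rfl)
        rw [hY] at hψ ⊢
        have e : lam (fun x => ψ (h x)) = ρ * lam ψ * ρ⁻¹ := by
          rw [eq_mul_inv_iff_mul_eq]
          refine hext _ _ (fun F => ?_)
          show lam (fun x => ψ (h x)) (ρ (mk F)) = ρ (lam ψ (mk F))
          rw [hρ, hlam, hlam, hρ]
          rfl
        rw [e]
        exact W.mul_mem (W.mul_mem hρW hψ) (W.inv_mem hρW))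
      obtain ⟨c, hc1, hc2⟩ := exists_join (lo := lo) hfhi hhi' (fun q => ∃ ψ ∈ Y, Ess q ψ)
      have hYc : ∀ u, u ∈ Y ↔ Dep (Bl c) u := by
        intro u
        rw [hcl]
        have hpc : ∀ p : JP f lo t, (∃ q, p ≤ q ∧ ∃ ψ ∈ Y, Ess q ψ) ↔ Bl c p := by
          intro p
          constructor
          · rintro ⟨q, hpq, hq⟩
            exact le_trans (show p.1 ≤ q.1 from hpq) ((hc2 c hc1).1 le_rfl q hq)
          · intro hp
            exact jp_le hflo p _ hc2 hp
        exact ⟨fun h => h.mono (fun p => (hpc p).1), fun h => h.mono (fun p => (hpc p).2)⟩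
      refine ⟨c, hc1, ?_⟩
      rintro g ⟨u, h, hh, hg⟩
      obtain ⟨ρ, hρB, hρ⟩ := hrho h hh
      have hρW : ρ ∈ W := hW2 ρ hρB (by rw [hρ]; rfl)
      have e : g = lam u * ρ := by
        refine hext _ _ (fun F => ?_)
        show g (mk F) = lam u (ρ (mk F))
        rw [hg, hρ, hlam]
        rfl
      have e1 : g (mk 1) = mk u := by
        rw [hg]
        congr 1
        funext x
        exact mul_one _
      rw [e1, hdm _ _ c hc1, mul_one]
      have h3 : g ∈ W ↔ lam u ∈ W := by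
        rw [e]
        exact ⟨fun h => by
          have := W.mul_mem h (W.inv_mem hρW)
          rwa [mul_inv_cancel_right] at this, fun h => W.mul_mem h hρW⟩
      rw [h3, ← hY, hYc]
      exact ⟨fun h => h.inv, fun h => by
        have := h.inv
        rwa [inv_inv] at this⟩
    · intro a b ha hb hab
      refine jsep hlo' hd ha hb (fun p hpa => ?_)
      by_contra hpb
      let u : Om M (JP f lo t) → T := fun x => if x.2 p = 0 then s0 else 1
      have hu : lam u (mk 1) = mk u := by rw [hlam, mul_one]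
      have h1 : S.d (lam u (mk 1)) (mk 1) ≤ a := by
        rw [hu, hdm _ _ a ha, mul_one]
        apply Dep.inv
        intro x y hxy
        show (if x.2 p = 0 then s0 else 1) = (if y.2 p = 0 then s0 else 1)
        rw [hxy.2 p hpa]
      have h2 := hab _ (hlamB u) h1
      rw [hu, hdm _ _ b hb, mul_one] at h2
      have h3 := h2.inv
      rw [inv_inv] at h3
      obtain ⟨m⟩ := ‹Nonempty M›
      have h4 := h3 (m, fun _ => 0) (m, Function.update (fun _ => 0) p 1) ⟨rfl, fun q hq => by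
        have : q ≠ p := by rintro rfl; exact hpb hq
        exact (Function.update_of_ne this _ _).symm⟩
      have h5 : (if (0 : Fin 3) = 0 then s0 else 1) =
          (if (Function.update (fun _ => (0 : Fin 3)) p 1 : JP f lo t → Fin 3) p = 0
            then s0 else 1) := h4
      rw [if_pos rfl, Function.update_self, if_neg (by decide)] at h5
      exact hs0 h5
  refine ⟨S, mk, B, hdm, hmk, hrho, hBiso, ?_, ?_⟩
  · intro ω
    obtain ⟨F, rfl⟩ := hmk ω
    have h1 := intOK_transport hBiso (hlamB F) hint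
    rwa [hlam, mul_one] at h1
  · -- flags
    intro x y l l' hl hl' hfl
    obtain ⟨F, rfl⟩ := hmk x
    obtain ⟨G, rfl⟩ := hmk y
    obtain ⟨u, v, hu, hv, huv⟩ := flag_fn (Bl l) (Bl l') (F⁻¹ * G) (by
      intro i j hi hj
      obtain ⟨m, hm1, hm2, hm3⟩ := sep hd hl i.2.1 hi
      obtain ⟨m', hm1', hm2', hm3'⟩ := sep hd hl' j.2.1 hj
      obtain ⟨z, hz1, hz2⟩ := hfl m m' hm1 hm1' hm2 hm2'
      obtain ⟨Z, rfl⟩ := hmk z
      rw [hdm _ _ _ hm1.1] at hz1
      rw [hdm _ _ _ hm1'.1] at hz2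
      exact ⟨Bl m, Bl m', hm3, hm3', _, _, hz1, hz2, by
        rw [mul_assoc, mul_inv_cancel_left]⟩)
    refine ⟨mk (F * u), ?_, ?_⟩
    · rw [hdm _ _ _ hl, inv_mul_cancel_left]
      exact hu
    · rw [hdm _ _ _ hl', mul_inv_rev, mul_assoc, huv, inv_mul_cancel_left]
      exact hv

end Vale.Agent.P183.H330D
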